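import Vale.Agent.P013.Jac

/-!
# P013: Jacobsthal's function for integers with few small prime factors
`jac` is Jacobsthal's function (defined in `Vale.Agent.P013.Jac`); `n.primeFactors.card` is
`omega(n)`.
-/

namespace Vale.Agent.Results.P013.FewSmallPrimes

open Finset Vale.Agent.P013

lemma general {n : ℕ} (hn : n ≠ 0) (T : Finset ℕ) (hT : T ⊆ n.primeFactors)
    (hR : ∑ p ∈ n.primeFactors \ T, 1 / (p : ℝ) ≤ (∏ p ∈ T, (1 - 1 / (p : ℝ))) / 2) :
    (jac n : ℝ) ≤ 2 * (2 ^ T.card + ((n.primeFactors \ T).card : ℝ)) /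
      (∏ p ∈ T, (1 - 1 / (p : ℝ))) + 1 := by
  have hTp : ∀ p ∈ T, p.Prime := fun p hp => Nat.prime_of_mem_primeFactors (hT hp)
  set W := ∏ p ∈ T, (1 - 1 / (p : ℝ)) with hW
  have hW0 : 0 < W := lt_of_lt_of_le (by positivity) (prod_ge T hTp)
  set X := 2 * (2 ^ T.card + ((n.primeFactors \ T).card : ℝ)) / W with hX
  have hX0 : 0 ≤ X := by positivity
  have h1 : jac n ≤ ⌊X⌋₊ + 1 := by
    apply jac_le (Nat.succ_pos _)
    intro a
    apply exists_coprime hn T hT hR
    have h2 : X < ((⌊X⌋₊ + 1 : ℕ) : ℝ) := by exact_mod_cast Nat.lt_floor_add_one X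
    rwa [hX, div_lt_iff₀ hW0] at h2
  have h3 : (jac n : ℝ) ≤ ((⌊X⌋₊ + 1 : ℕ) : ℝ) := by exact_mod_cast h1
  have h4 := Nat.floor_le hX0
  push_cast at h3
  linarith

/-- (1) If the prime factors of `n` outside `T` have reciprocal sum at most half of
`W = prod over T of (1 - 1/p)`, then `j(n) <= 2 (2^|T| + |rest|) / W + 1`.
(2) If at most `L = log2 omega(n)` prime factors of `n` are at most `2 (L+1) omega(n)`, then
`j(n) <= 4 (L+1) omega(n) + 1`. -/
theorem result :
    (∀ n : ℕ, n ≠ 0 → ∀ T : Finset ℕ, T ⊆ n.primeFactors →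
      ∑ p ∈ n.primeFactors \ T, 1 / (p : ℝ) ≤ (∏ p ∈ T, (1 - 1 / (p : ℝ))) / 2 →
      (jac n : ℝ) ≤ 2 * (2 ^ T.card + ((n.primeFactors \ T).card : ℝ)) /
        (∏ p ∈ T, (1 - 1 / (p : ℝ))) + 1) ∧
    (∀ n : ℕ, 2 ≤ n →
      (n.primeFactors.filter (fun p =>
        p ≤ 2 * (Nat.log 2 n.primeFactors.card + 1) * n.primeFactors.card)).card ≤
          Nat.log 2 n.primeFactors.card →
      (jac n : ℝ) ≤ 4 * (Nat.log 2 n.primeFactors.card + 1) * n.primeFactors.card + 1) := by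
  refine ⟨fun n hn T hT hR => general hn T hT hR, ?_⟩
  intro n hn hs
  have hk : 0 < n.primeFactors.card := by
    rw [card_pos]
    exact Nat.nonempty_primeFactors.mpr hn
  set k := n.primeFactors.card with hkdef
  set L := Nat.log 2 k with hL
  set T := n.primeFactors.filter (fun p => p ≤ 2 * (L + 1) * k) with hTdef
  have hT : T ⊆ n.primeFactors := filter_subset _ _
  have hTp : ∀ p ∈ T, p.Prime := fun p hp => Nat.prime_of_mem_primeFactors (hT hp)
  have hW1 := prod_ge T hTp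
  set W := ∏ p ∈ T, (1 - 1 / (p : ℝ)) with hW
  have hkR : (0 : ℝ) < k := by exact_mod_cast hk
  have hLR : (0 : ℝ) ≤ (L : ℝ) := by positivity
  have hTL : (T.card : ℝ) ≤ L := by exact_mod_cast hs
  have hW2 : 1 / ((L : ℝ) + 1) ≤ W :=
    le_trans (one_div_le_one_div_of_le (by positivity) (by linarith)) hW1
  have hW0 : 0 < W := lt_of_lt_of_le (by positivity) hW2
  have hRk : ((n.primeFactors \ T).card : ℝ) ≤ k := by
    exact_mod_cast card_le_card sdiff_subset
  have hsum : ∑ p ∈ n.primeFactors \ T, 1 / (p : ℝ) ≤ W / 2 := by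
    have h1 : ∀ p ∈ n.primeFactors \ T, 1 / (p : ℝ) ≤ 1 / (2 * ((L : ℝ) + 1) * k) := by
      intro p hp
      rw [mem_sdiff] at hp
      have h2 : 2 * (L + 1) * k < p := by
        by_contra hc
        exact hp.2 (mem_filter.mpr ⟨hp.1, by omega⟩)
      apply one_div_le_one_div_of_le (by positivity)
      exact_mod_cast h2.le
    have h3 := sum_le_card_nsmul _ _ _ h1
    rw [nsmul_eq_mul] at h3
    have h4 : ((n.primeFactors \ T).card : ℝ) * (1 / (2 * ((L : ℝ) + 1) * k)) ≤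
        k * (1 / (2 * ((L : ℝ) + 1) * k)) := mul_le_mul_of_nonneg_right hRk (by positivity)
    have h5 : (k : ℝ) * (1 / (2 * ((L : ℝ) + 1) * k)) = (1 / ((L : ℝ) + 1)) / 2 := by
      field_simp
    linarith
  have hg := general (by omega : n ≠ 0) T hT hsum
  have h2k : (2 : ℝ) ^ T.card ≤ k := by
    have h6 : 2 ^ T.card ≤ 2 ^ L := Nat.pow_le_pow_right (by norm_num) hs
    have h7 : 2 ^ L ≤ k := Nat.pow_log_le_self 2 hk.ne'
    exact_mod_cast h6.trans h7
  have h8 : 2 * (2 ^ T.card + ((n.primeFactors \ T).card : ℝ)) / W ≤ 4 * (L + 1) * k := by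
    rw [div_le_iff₀ hW0]
    have h9 : 1 ≤ ((L : ℝ) + 1) * W := by
      rw [div_le_iff₀ (by positivity)] at hW2
      linarith
    have h10 : 4 * (k : ℝ) * 1 ≤ 4 * k * (((L : ℝ) + 1) * W) :=
      mul_le_mul_of_nonneg_left h9 (by positivity)
    nlinarith
  linarith

end Vale.Agent.Results.P013.FewSmallPrimes
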